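import Crest.Agent.X262.Fam17.Pl
import Crest.Agent.X262.Geo.Val
import Crest.Agent.X262.Loc95.Crv
import Crest.Agent.X277.BD.Vol2
import Crest.Agent.X262.Gfm18.Base
import Crest.Agent.X262.Bnd.Defs
import Crest.Agent.X262.Surf.K3n
import Crest.Agent.X262.Hor83.Main
import Crest.Agent.X262.Geo.Dv
import Crest.Agent.X262.Gfm18.Mfs

-- ▼ part X262/Fam17/Rg
section

/-!
# Row 262, FAM (helper17), part 1: the residue field of a linear place, single primes

* `rg hp`, `toRg hp` : the range of a linear place, the surjective place onto it;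
* `rk_eq`, `dim_rg_lt`, `dvs_iff_dim` : dimensions;
* `bnum_rs_zero`, `bnum_rs_prj` : products of restricted classes;
* `exists_single` : an effective class whose trace on a model is one prime;
* `exists_uni` : a list with intersection number one (algebraically closed ground field);
* `dvd_bnum` : the degree of a class of a surface on the members of a family of curves.
-/

set_option autoImplicit false
set_option linter.unusedSectionVars false

noncomputable section

namespace Crest.Agent.X262.Fam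

open Crest.Agent.X277 Crest.Agent.X277.BD Crest.Agent.X277.Pst
open Crest.Agent.X277.BD.Cyc (Lnr Rf plV lnr_plV surj_plV exists_lift)
open Crest.Agent.X277.Neg (nv)
open Crest.Agent.X262.Geo Crest.Agent.X262.Loc
open Crest.Agent.X262.Mod (IsMod Car)
open List (replicate)
open WithZero

variable {k F E L : Type} [Field k] [Field F] [Algebra k F] [Field E] [Algebra k E] [Field L]
  [Algebra k L] {p : Pl k F k E}

theorem Cmp.lnr {q : Pl k E k L} {t : Pl k F k L} (h : Cmp p q t) (hp : Lnr p) (hq : Lnr q) :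
    Lnr t := fun c => by rw [h.r _ (t.V.2 c), hp, hq]

theorem lnr_ofHom (α : F →ₐ[k] E) : Lnr (Pl.ofHom (α : F →+* E) (alg_ov α)) := fun c => by
  rw [Pl.r_ofHom]
  exact α.commutes c

/-- the restriction of a place to a subfield -/
def sub (α : F →ₐ[k] E) (q : Pl k E k L) : Pl k F k L := cmp (Pl.ofHom (α : F →+* E) (alg_ov α)) q

section sub

variable {α : F →ₐ[k] E} {q : Pl k E k L} {x : F}

theorem mem_sub : x ∈ (sub α q).V.1 ↔ α x ∈ q.V.1 := by
  rw [sub, (cmp_cmp _ _).mem, Pl.r_ofHom]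
  exact ⟨fun h => h.2, fun h => ⟨mem_ofHom _ _ x, h⟩⟩

theorem sub_V : (sub α q).V = cm (α : F →+* E) (alg_ov α) q.V :=
  Subtype.ext (ValuationSubring.ext _ _ fun _ => mem_sub)

theorem sub_r (x : F) : (sub α q).r x = q.r (α x) := by
  by_cases h : x ∈ (sub α q).V.1
  · rw [sub, (cmp_cmp _ _).r x h, Pl.r_ofHom]
    rfl
  · rw [Pl.r, dif_neg h, Pl.r, dif_neg (mem_sub.not.1 h)]

theorem lnr_sub (hq : Lnr q) : Lnr (sub α q) := (cmp_cmp _ _).lnr (lnr_ofHom α) hq

theorem rs_pb (α : F →ₐ[k] E) (q : Pl k E k L) (a : BD k F) :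
    Lin (q.rs (pb α a)) ((sub α q).rs a) := rs_mp (fun _ => mem_sub) (fun x _ => sub_r x) a

end sub

/-- the residue field of a linear place -/
def rg (hp : Lnr p) : IntermediateField k E :=
  Subfield.toIntermediateField
    { carrier := Set.range p.r
      mul_mem' := by
        rintro _ _ ⟨x, rfl⟩ ⟨y, rfl⟩
        by_cases hx : x ∈ p.V.1
        · by_cases hy : y ∈ p.V.1
          · exact ⟨x * y, Pl.r_mul hx hy⟩
          · exact ⟨0, by rw [Pl.r_zero, Pl.r.eq_1 p y, dif_neg hy, mul_zero]⟩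
        · exact ⟨0, by rw [Pl.r_zero, Pl.r.eq_1 p x, dif_neg hx, zero_mul]⟩
      one_mem' := ⟨1, p.r_one⟩
      add_mem' := by
        rintro _ _ ⟨x, rfl⟩ ⟨y, rfl⟩
        by_cases hx : x ∈ p.V.1
        · by_cases hy : y ∈ p.V.1
          · exact ⟨x + y, Pl.r_add hx hy⟩
          · exact ⟨x, by rw [Pl.r.eq_1 p y, dif_neg hy, add_zero]⟩
        · exact ⟨y, by rw [Pl.r.eq_1 p x, dif_neg hx, zero_add]⟩
      zero_mem' := ⟨0, p.r_zero⟩
      neg_mem' := by
        rintro _ ⟨x, rfl⟩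
        by_cases hx : x ∈ p.V.1
        · exact ⟨-x, Pl.r_neg hx⟩
        · exact ⟨0, by rw [Pl.r_zero, Pl.r.eq_1 p x, dif_neg hx, neg_zero]⟩
      inv_mem' := by
        rintro _ ⟨x, rfl⟩
        exact ⟨x⁻¹, Pl.r_inv x⟩ }
    fun c => ⟨_, hp c⟩

variable (hp : Lnr p)


theorem mem_rg' {y : E} : y ∈ rg hp ↔ ∃ x ∈ p.V.1, p.r x = y := by
  refine ⟨?_, fun ⟨x, _, h⟩ => ⟨x, h⟩⟩
  rintro ⟨x, rfl⟩
  by_cases hx : x ∈ p.V.1
  · exact ⟨x, hx, rfl⟩
  · exact ⟨0, zero_mem _, by rw [Pl.r_zero, Pl.r, dif_neg hx]⟩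

/-- the place onto its residue field -/
def toRg : Pl k F k (rg hp) where
  V := p.V
  φ := p.φ.codRestrict (rg hp) fun x => ⟨x, p.r_coe x⟩
  ker x := by
    rw [← p.ker x, Subtype.ext_iff]
    rfl
  ov c := ⟨c, Subtype.ext ((p.r_eq _).symm.trans (hp c))⟩

theorem toRg_r (x : F) : ((toRg hp).r x : E) = p.r x := by
  by_cases h : x ∈ p.V.1
  · rw [(toRg hp).r_eq h, p.r_eq h]
    rfl
  · rw [Pl.r.eq_1 p, dif_neg h, Pl.r, dif_neg (show x ∉ (toRg hp).V.1 from h)]
    rfl

theorem lnr_toRg : Lnr (toRg hp) := fun c => Subtype.ext ((toRg_r hp _).trans (hp c))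

theorem surj_toRg : Function.Surjective (toRg hp).φ := fun y => by
  obtain ⟨x, hx, h⟩ := (mem_rg' hp).1 y.2
  exact ⟨⟨x, hx⟩, Subtype.ext ((p.r_eq hx).symm.trans h)⟩

theorem pb_toRg (a : BD k F) : Lin (pb (rg hp).val ((toRg hp).rs a)) (p.rs a) :=
  mp_rs (p := toRg hp) (t := p) (fun _ => Iff.rfl) (fun x _ => (toRg_r hp x).symm) a

theorem rs_congr {k' : Type} [Field k'] [Algebra k' E] {p t : Pl k F k' E}
    (h1 : ∀ x, x ∈ t.V.1 ↔ x ∈ p.V.1) (h2 : ∀ x ∈ t.V.1, t.r x = p.r x) (a : BD k F) :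
    Lin (p.rs a) (t.rs a) := by
  have : Lin (mp (k := k') (k' := k') (RingHom.id E) (fun c => ⟨c, rfl⟩) (p.rs a)) (t.rs a) :=
    mp_rs h1 h2 a
  rwa [mp_id fun _ => rfl] at this

/-- a trivial place is an embedding -/
def homOf (h : p.V.1 = ⊤) : F →ₐ[k] E where
  toFun := p.r
  map_one' := p.r_one
  map_mul' _ _ := Pl.r_mul (h ▸ trivial) (h ▸ trivial)
  map_zero' := p.r_zero
  map_add' _ _ := Pl.r_add (h ▸ trivial) (h ▸ trivial)
  commutes' := hp


theorem pb_homOf (h : p.V.1 = ⊤) (a : BD k F) : Lin (pb (homOf hp h) a) (p.rs a) :=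
  (lin_mp _ _ a).symm.trans (rs_congr (fun x => ⟨fun _ => mem_ofHom _ _ x, fun _ => h ▸ trivial⟩)
    (fun x _ => by rw [Pl.r_ofHom]; rfl) a)

theorem deg_of_surj {α : F →ₐ[k] E} (h : Function.Surjective α) : deg α = 1 := by
  let := α.toRingHom.toAlgebra
  exact Algebra.finrank_eq_one_iff_bijective_algebraMap.2 ⟨α.injective, h⟩

theorem surj_homOf (h : p.V.1 = ⊤) : Function.Surjective (homOf (lnr_toRg hp) h) := fun y => by
  obtain ⟨x, hx⟩ := surj_toRg hp y
  exact ⟨x, ((toRg hp).r_coe x).trans hx⟩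

theorem forall₂_map {α β : Type*} {R : β → β → Prop} {f g : α → β} (h : ∀ a, R (f a) (g a))
    (l : List α) : List.Forall₂ R (l.map f) (l.map g) := by
  induction l with
  | nil => exact .nil
  | cons a l ih => exact .cons (h a) ih

variable [CharZero k] [Algebra.EssFiniteType k E]

theorem bnum_map_lin {α : Type*} {f g : α → BD k E} (h : ∀ a, Lin (f a) (g a)) (l : List α)
    (l' : List (BD k E)) : bnum (l.map f ++ l') = bnum (l.map g ++ l') :=
  bnum_congr (forall₂_map h l) l'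

theorem bnum_map_lin' {α : Type*} {f g : α → BD k E} (h : ∀ a, Lin (f a) (g a)) (l : List α) :
    bnum (l.map f) = bnum (l.map g) := by simpa using bnum_map_lin h l []

include hp in
theorem rk_eq (hs : Function.Surjective p.φ) : (rm p.V).eRk Set.univ = dim k E := by
  refine le_antisymm (le_of_nat fun n hn => ?_) ?_
  · obtain ⟨x, -, hx⟩ := le_rk_iff.1 hn
    have h1 := ((resInd_iff hp hx.1).1 hx).cardinalMk_le_trdeg
    rw [trdeg_eq_dim, Cardinal.mk_fin] at h1
    exact_mod_cast h1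
  · obtain ⟨t, ht⟩ := exists_isTranscendenceBasis k E
    have h1 := ht.cardinalMk_eq_trdeg
    rw [trdeg_eq_dim] at h1
    obtain ⟨e⟩ := Cardinal.mk_eq_nat_iff.1 h1
    choose y hy using fun i : Fin (dim k E) => hs (e.symm i)
    refine le_rk_iff.2 ⟨fun i => y i, fun _ => trivial, (resInd_iff hp fun i => (y i).2).2 ?_⟩
    simp only [Pl.r_coe, hy]
    exact ht.1.comp _ e.symm.injective

theorem rk_rg : (rm p.V).eRk Set.univ = dim k (rg hp) := rk_eq (lnr_toRg hp) (surj_toRg hp)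

/-- too many classes from a small residue field -/
theorem bnum_rs_zero {lam : List (BD k F)} (h : dim k (rg hp) < lam.length) (l : List (BD k E)) :
    bnum (lam.map p.rs ++ l) = 0 := by
  rw [← bnum_map_lin (pb_toRg hp), ← bnum_pb_zero (rg hp).val
    (l := lam.map (toRg hp).rs) (by simpa using h) l, List.map_map]
  rfl

theorem bnum_rs_prj {lam : List (BD k F)} (h : lam.length = dim k (rg hp)) (l : List (BD k E)) :
    bnum (lam.map p.rs ++ l) = bnum (lam.map (toRg hp).rs) * bnum (l.map (up (rg hp))) := by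
  rw [← bnum_map_lin (pb_toRg hp), ← bnum_prj_val _ _ (by simpa using h), bnum_comm, List.map_map]
  rfl

variable [Algebra.EssFiniteType k F]

theorem dim_rg_lt (h0 : p.V.1 ≠ ⊤) : dim k (rg hp) < dim k F := by
  have := rk_succ_le h0 Set.univ
  rw [rk_rg hp, dm_eq] at this
  exact_mod_cast this


theorem dim_rg_top (h : p.V.1 = ⊤) : dim k (rg hp) = dim k F :=
  (deg_pos_iff _).1 (by rw [deg_of_surj (surj_homOf hp h)]; exact one_pos)

theorem bnum_rg_top (h : p.V.1 = ⊤) (l : List (BD k F)) :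
    bnum (l.map (toRg hp).rs) = bnum l := by
  rw [← bnum_map_lin' (pb_homOf (lnr_toRg hp) h), bnum_pb, deg_of_surj (surj_homOf hp h)]
  simp

theorem dvs_iff_dim : Dvs p.V ↔ p.V.1 ≠ ⊤ ∧ dim k F = dim k (rg hp) + 1 := by
  rw [dvs_iff, rk_rg hp, dm_eq]
  refine and_congr_right fun h0 => ⟨fun h => le_antisymm (by exact_mod_cast h) (dim_rg_lt hp h0),
    fun h => by exact_mod_cast h.le⟩

theorem dg_eq_rg (hV : Dvs p.V) (l : List (BD k F)) : dg p.V l = bnum (l.map (toRg hp).rs) :=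
  dg_eq_pl (p := toRg hp) hV (lnr_toRg hp) (surj_toRg hp) l

/-- the restriction of a divisorial valuation to a subfield is trivial or divisorial -/
theorem dvs_cm (α : F →ₐ[k] E) {V : RZ k E} (hV : Dvs V)
    (h0 : (cm (α : F →+* E) (alg_ov α) V).1 ≠ ⊤) : Dvs (cm (α : F →+* E) (alg_ov α) V) := by
  let := α.toRingHom.toAlgebra
  have : IsScalarTower k F E := IsScalarTower.of_algebraMap_eq fun c => (α.commutes c).symm
  have h1 := rk_fibre (trdeg_dm k E) (trdeg_dm k F) V
  have h2 := (dvs_iff.1 hV).2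
  refine dvs_iff.2 ⟨h0, ?_⟩
  change _ ≤ (rm (rsK F V)).eRk Set.univ + 1
  refine (ENat.add_le_add_iff_right (ENat.natCast_ne_top (Gj.dm k E))).1 ?_
  calc (Gj.dm k F : ℕ∞) + Gj.dm k E ≤ Gj.dm k F + ((rm V).eRk Set.univ + 1) := by gcongr
    _ = (rm V).eRk Set.univ + Gj.dm k F + 1 := by ring
    _ ≤ (rm (rsK F V)).eRk Set.univ + Gj.dm k E + 1 := by gcongr
    _ = _ := by ring

section single

variable {V W : RZ k F} {H : BD k F}

theorem eq_of_dvs_le (hV : Dvs V) (h0 : W.1 ≠ ⊤) (h : V.1 ≤ W.1) : V = W := by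
  refine Subtype.ext (le_antisymm h fun x hx => by_contra fun hxV => h0 ?_)
  have h1 : 1 < nv V x := not_le.1 ((nv_le_one hV).not.2 hxV)
  have hx0 : nv V x ≠ 0 := (zero_lt_one.trans h1).ne'
  refine top_unique fun y _ => ?_
  by_cases hy0 : y = 0
  · exact hy0 ▸ zero_mem _
  obtain ⟨n, hn⟩ : ∃ n : ℕ, nv V y ≤ nv V x ^ n := by
    have h2 : nv V y ≠ 0 := by simpa using hy0
    refine ⟨(log (nv V y)).toNat, ?_⟩
    rw [← exp_log h2, ← exp_log hx0, ← exp_nsmul, exp_le_exp, log_exp, nsmul_eq_mul]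
    have h3 : 0 < log (nv V x) := by rwa [← exp_lt_exp, exp_log hx0]
    nlinarith [Int.self_le_toNat (log (nv V y)), Int.natCast_nonneg (log (nv V y)).toNat]
  have hx1 : x ^ n ≠ 0 := pow_ne_zero _ (by simpa using hx0)
  have h3 : y / x ^ n ∈ V.1 := (nv_le_one hV).1 (by
    rw [map_div₀, map_pow]
    exact div_le_one_of_le₀ hn zero_le)
  simpa [hx1] using mul_mem (h h3) (pow_mem hx n)

theorem exists_sep (hV : Dvs V) (hW : Dvs W) (h : V ≠ W) :
    ∃ a : BD k F, 0 ≤ a ∧ 1 ≤ od V a ∧ od W a = 0 := by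
  obtain ⟨x, h1, h2⟩ := SetLike.not_le_iff_exists.1 fun h' => h (eq_of_dvs_le hW hV.ne_top h').symm
  have hx : x ≠ 0 := fun h => h2 (h ▸ zero_mem _)
  have h3 : 1 < nv V x := not_le.1 ((nv_le_one hV).not.2 h2)
  have h4 : nv W x ≤ 1 := (nv_le_one hW).2 h1
  refine ⟨pr k x ⊔ 0, le_sup_right, ?_, ?_⟩
  · rw [od_sup, od_pr hx]
    refine le_max_of_le_left (show 0 < log (nv V x) from ?_)
    rwa [← exp_lt_exp, exp_log (zero_lt_one.trans h3).ne']
  · rw [od_sup, od_pr hx, map_zero, max_eq_right]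
    rwa [← exp_le_exp, exp_log (by simpa using hx)]

/-- an effective class whose trace on the model is one prime -/
theorem exists_single (hH : IsMod H) (hV : Dvs V) : ∃ a : BD k F, 0 ≤ a ∧ od V a = 1 ∧
    ∀ W, Prm H W → W ≠ V → od W a = 0 := by
  obtain ⟨t, ht⟩ := nv_unif hV
  have ht0 : t ≠ 0 := fun h => exp_ne_zero (by rw [← ht, h, map_zero])
  have key : ∀ T : Finset (RZ k F), (∀ W ∈ T, Dvs W ∧ W ≠ V) → ∃ a : BD k F, 0 ≤ a ∧
      a ≤ pr k t⁻¹ ⊔ 0 ∧ od V a = 1 ∧ ∀ W ∈ T, od W a = 0 := by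
    classical
    intro T
    induction T using Finset.induction_on with
    | empty =>
      refine fun _ => ⟨_, le_sup_right, le_rfl, ?_, by simp⟩
      rw [od_sup, od_pr (inv_ne_zero ht0), map_inv₀, ht, ← exp_neg, log_exp, map_zero]
      rfl
    | insert W T _ ih =>
      intro h
      obtain ⟨a, h1, h2, h3, h4⟩ := ih fun U hU => h U (Finset.mem_insert_of_mem hU)
      obtain ⟨h5, h6⟩ := h W (Finset.mem_insert_self _ _)
      obtain ⟨b, h7, h8, h9⟩ := exists_sep hV h5 h6.symm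
      refine ⟨a ⊓ b, le_inf h1 h7, inf_le_left.trans h2, by rw [od_inf, h3, min_eq_left h8],
        fun U hU => ?_⟩
      rcases Finset.mem_insert.1 hU with rfl | hU
      · rw [od_inf, h9, min_eq_right (od_nonneg h1)]
      · rw [od_inf, h4 U hU, min_eq_left (od_nonneg h7)]
  have hf : {W | (Prm H W ∧ od W (pr k t⁻¹ ⊔ 0) ≠ 0) ∧ W ≠ V}.Finite :=
    (fin_od hH (pr k t⁻¹ ⊔ 0)).subset fun _ h => h.1
  obtain ⟨a, h1, h2, h3, h4⟩ := key hf.toFinset fun W hW =>
    ⟨(hf.mem_toFinset.1 hW).1.1.dvs, (hf.mem_toFinset.1 hW).2⟩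
  refine ⟨a, h1, h3, fun W h5 h6 => ?_⟩
  by_cases h7 : od W (pr k t⁻¹ ⊔ 0) = 0
  · exact le_antisymm (h7 ▸ od_mono h2) (od_nonneg h1)
  · exact h4 W (hf.mem_toFinset.2 ⟨⟨h5, h7⟩, h6⟩)

theorem bnum_single {a : BD k F} {l : List (BD k F)} (hV : Dvs V)
    (h : ∀ W, Dvs W → W ≠ V → od W a ≠ 0 → dg W l = 0) : bnum (a :: l) = od V a * dg V l := by
  obtain ⟨T, h1, h2, h3, h4⟩ := exists_cyc a l {V} (by simpa using hV)
  rw [h4, Finset.sum_eq_single_of_mem V (h1 (by simp)) fun W hW hne => ?_]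
  rw [h W (h2 W hW) hne (h3 W hW (by simpa using hne)), mul_zero]

/-- a list which sees only one prime -/
theorem exists_pair (hV : Dvs V) {d : ℕ} (hd : dim k F = d + 1) (L : List (BD k F)) :
    ∃ a H : BD k F, 0 ≤ a ∧ IsMod H ∧ od V a = 1 ∧ Prm H V ∧ (∀ b ∈ L, Car H b) ∧
      (∀ W, Prm H W → W ≠ V → od W a = 0) ∧ bnum (a :: replicate d H) = dg V (replicate d H) := by
  obtain ⟨H, h1, -, -, h2, h3⟩ := exists_model Free.zero {V} (by simpa using hV) L
  obtain ⟨a, h4, h5, h6⟩ := exists_single h1 hV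
  refine ⟨a, H, h4, h1, h5, h2 V (by simp), h3, h6, ?_⟩
  rw [bnum_single hV fun W h7 h8 h9 => dg_eq_zero h1.free h7 (fun h => h9 (h6 W h h8)) hd, h5,
    one_mul]

theorem exists_uni1 [IsAlgClosed k] (hd : dim k F = 1) : ∃ a : BD k F, Nef a ∧ bnum [a] = 1 := by
  obtain ⟨P, -⟩ := exists_pt hd ∅
  have h1 : R013.RR8_948.degP P = 1 := by
    have h2 := degP_pos' hd P
    rw [degP_eq] at h2 ⊢
    have := Module.finite_of_finrank_pos (by exact_mod_cast h2 : 0 < Module.finrank k (Rf (rzP P)))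
    exact_mod_cast Algebra.finrank_eq_one_iff_bijective_algebraMap.2
      IsAlgClosed.algebraMap_bijective_of_isIntegral
  have h2 : bnum [dvB hd (Finsupp.single P 1)] = 1 := by rw [bnum_dvB_single, h1]; rfl
  exact ⟨_, (nef_iff_deg hd).2 (by rw [h2]; exact zero_le_one), h2⟩

theorem exists_uni2 [IsAlgClosed k] (hd : dim k F = 2) : ∃ a b : BD k F, bnum [a, b] = 1 := by
  obtain ⟨H0, hH0⟩ := Mod.exists_isMod (k := k) (F := F)
  obtain ⟨V, hV⟩ : ∃ V : RZ k F, Dvs V := by
    by_contra h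
    refine (bnum_pos (l := [H0, H0]) hd.symm ?_).ne' (bnum_eq_zero fun V hV => (h ⟨V, hV⟩).elim)
    simpa using ⟨hH0.free.nef, hH0.big⟩
  have := essFT_Rf hV
  obtain ⟨c, -, hc⟩ := exists_uni1 (F := Rf V) (k := k) (by have := dim_Rf' hV; omega)
  obtain ⟨c1, c2, h1, h2, rfl⟩ := exists_sub c
  obtain ⟨b1, -, h3, rfl⟩ := exists_lift (surj_plV V) h1
  obtain ⟨b2, -, h4, rfl⟩ := exists_lift (surj_plV V) h2
  obtain ⟨a, H, -, h5, h6, -, h7, h8, -⟩ := exists_pair hV hd [b1 - b2]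
  refine ⟨a, b1 - b2, ?_⟩
  rw [bnum_single hV fun W h9 h10 h11 => ?_, h6, one_mul, dg_eq, ← hc]
  · exact ((lin_rs_sub _ _ _).trans (by
      simpa [sub_eq_add_neg] using (Pl.lin_rs_res h3).add (Pl.lin_rs_res h4).neg)).bnum_eq _
  · obtain ⟨m, h12, h13⟩ := h7 (b1 - b2) (by simp)
    have h14 : dg W [H] = 0 := dg_eq_zero h5.free h9 (fun h => h11 (h8 W h h10)) hd
    have h15 := dg_nonneg (V := W) (l := [m • H + (b1 - b2)]) (by simpa using h12.nef)
    have h16 := dg_nonneg (V := W) (l := [m • H - (b1 - b2)]) (by simpa using h13.nef)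
    rw [dg_add, dg_nsmul, h14] at h15
    rw [dg_sub, dg_nsmul, h14] at h16
    omega

end single

/-- **divisibility** of the degree of a class of a surface on the members of a family of curves -/
theorem dvd_bnum (hd : dim k F = 2) {H : BD k F} {e : ℤ} (he : ∀ V, Dvs V → e ∣ dg V [H]) :
    ∀ (n : ℕ) (E : Type) [Field E] [Algebra k E] [Algebra.EssFiniteType k E] (p : Pl k F k E)
      (l : List (BD k E)), Lnr p → l.length = n → e ∣ bnum (p.rs H :: l)
  | 0, E, _, _, _, p, l, hp, hl => by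
    obtain rfl := List.length_eq_zero_iff.1 hl
    by_cases h1 : dim k E = 1
    · by_cases h2 : dim k (rg hp) = 1
      · have hV : Dvs p.V := (dvs_iff_dim hp).2 ⟨fun h => by have := dim_rg_top hp h; omega,
          by omega⟩
        have h3 := bnum_rs_prj hp (lam := [H]) h2.symm []
        rw [← dg_eq_rg hp hV] at h3
        exact (show bnum [p.rs H] = _ from h3) ▸ (he _ hV).mul_right _
      · have h3 := dim_le (rg hp).val
        exact (show bnum [p.rs H] = _ from bnum_rs_zero hp (lam := [H]) (by simp; omega) []) ▸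
          dvd_zero e
    · rw [bnum_of_ne (by simpa using Ne.symm h1)]
      exact dvd_zero e
  | n + 1, E, _, _, _, p, l, hp, hl => by
    obtain ⟨a, l, rfl⟩ := List.exists_cons_of_length_eq_add_one hl
    obtain ⟨T, -, h2, -, h4⟩ := exists_cyc a (p.rs H :: l) ∅ (by simp)
    rw [bnum_swap, h4]
    refine Finset.dvd_sum fun V hV => Dvd.dvd.mul_left ?_ _
    have := essFT_Rf (h2 V hV)
    rw [dg_eq, List.map_cons, ((cmp_cmp p (plV V)).rs H).bnum_eq]
    exact dvd_bnum hd he n _ _ _ ((cmp_cmp _ _).lnr hp (lnr_plV V)) (by simpa using hl)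

section spec

variable {M : Type} [Field M] [Algebra k M] [Algebra M F] [IsScalarTower k M F]
  [Algebra.EssFiniteType k M] [CharZero M] [Algebra.EssFiniteType M F]

variable (M) in
/-- the trace of the place on the subfield -/
abbrev tr (p : Pl k F k E) : Pl k M k E := sub (IsScalarTower.toAlgHom k M F) p

variable (M) in
/-- the residue field of the trace -/
abbrev k0 : IntermediateField k E := rg (p := tr M p) (lnr_sub hp)

theorem dg_pb_app (hs : Function.Surjective p.φ) (hV : Dvs p.V) {lam : List (BD k M)}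
    (h : lam.length = dim k (k0 hp M)) (l : List (BD k F)) :
    dg p.V (lam.map (pbK k F) ++ l) = bnum (lam.map (toRg (p := tr M p) (lnr_sub hp)).rs) *
      bnum ((l.map p.rs).map (up (k0 hp M))) := by
  rw [dg_eq_pl hV hp hs, List.map_append, List.map_map, ← bnum_rs_prj _ h]
  exact bnum_map_lin (rs_pb _ p) _ _

/-- **specialisation**, vertical case -/
theorem spec_vert (hs : Function.Surjective p.φ) (hV : Dvs p.V) (h0 : (tr M p).V.1 ≠ ⊤) :
    dim k M = dim k (k0 hp M) + 1 ∧ ∀ l : List (BD k F), (∀ a ∈ l, Nef a) →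
      bnum ((l.map p.rs).map (up (k0 hp M))) ≤ bnum (l.map (up M)) := by
  have hw : Dvs (tr M p).V := by
    rw [sub_V] at h0 ⊢
    exact dvs_cm _ hV h0
  have hd := ((dvs_iff_dim _).1 hw : _ ∧ _ = dim k (k0 hp M) + 1).2
  refine ⟨hd, fun l hl => ?_⟩
  obtain ⟨a, H, h1, h2, h3, h4, -, -, h5⟩ := exists_pair hw hd []
  have h6 := dg_pos h2 h4 hd
  have h7 := bnum_prj' l (lam := a :: replicate (dim k (k0 hp M)) H) (by simp [hd])
  have h8 := od_mul_le (a := pbK k F a) (l := (replicate (dim k (k0 hp M)) H).map (pbK k F) ++ l)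
    (mp_nonneg h1) (all_app (by
      rw [List.map_replicate]
      exact all_rp (h2.free.nef.pb (IsScalarTower.toAlgHom k M F)) _) hl) hV
  have h9 : 1 ≤ od p.V (pbK k F a) := by
    refine lt_of_le_of_ne (od_nonneg (mp_nonneg h1)) (Ne.symm fun h => ?_)
    have h9 := val_mp_eq_one.1 ((od_eq_zero hV).1 h)
    rw [← sub_V, ← od_eq_zero hw, h3] at h9
    exact one_ne_zero h9
  have h10 : 0 ≤ bnum ((l.map p.rs).map (up (k0 hp M))) := bnum_nonneg (by
    simpa using fun a ha => ((hl a ha).rs p).up _)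
  rw [dg_pb_app hp hs hV (by simp), ← dg_eq_rg _ hw] at h8
  rw [h5] at h7
  refine le_of_mul_le_mul_left (le_trans ?_ (h8.trans_eq h7)) h6
  exact le_mul_of_one_le_left (mul_nonneg h6.le h10) h9

/-- **specialisation**, horizontal case -/
theorem spec_hor (hs : Function.Surjective p.φ) (hV : Dvs p.V) (h0 : (tr M p).V.1 = ⊤)
    {a : BD k F} (ha : 0 ≤ a) {l : List (BD k F)} (hl : ∀ a ∈ l, Nef a) :
    od p.V a * bnum ((l.map p.rs).map (up (k0 hp M))) ≤ bnum ((a :: l).map (up M)) := by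
  obtain ⟨H, hH⟩ := Mod.exists_isMod (k := k) (F := M)
  have h6 : 0 < bnum (replicate (dim k M) H) :=
    bnum_pos (by simp) (all_rp ⟨hH.free.nef, hH.big⟩ _)
  have h7 := bnum_prj' (a :: l) (lam := replicate (dim k M) H) (by simp)
  have h8 := od_mul_le (l := (replicate (dim k M) H).map (pbK k F) ++ l) ha
    (all_app (by
      rw [List.map_replicate]
      exact all_rp (hH.free.nef.pb (IsScalarTower.toAlgHom k M F)) _) hl) hV
  rw [dg_pb_app hp hs hV (by simp [dim_rg_top _ h0]), bnum_rg_top _ h0, ← bnum_mid] at h8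
  refine le_of_mul_le_mul_left (le_trans (le_of_eq ?_) (h8.trans_eq h7)) h6
  ring

end spec

end Crest.Agent.X262.Fam
end
end

-- ▼ part X262/Fam17/End
section

/-!
# Row 262, FAM (helper17), part 2: the numerical endgame on a surface

`H` is nef and big, `e ^ 2 = d H ^ 2`; `A`, `P` are nef, `r` is the scale.

* `Dat.of_sq`  : `P ≡ 0`, `A ^ 2 ≤ v r ^ 2` bounds `d`;
* `Dat.of_fam` : a positive functional `φ` with `φ P = 0`, `φ A ≤ v r`, `e ≤ φ H` bounds `d`.
-/

set_option autoImplicit false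

noncomputable section

namespace Crest.Agent.X262.Fam

open Crest.Agent.X277 Crest.Agent.X277.BD

section arith

variable {d e r v h a x y : ℤ}

theorem ar0 (hr : 0 < r) (he : 0 < e) (hh : 0 < h) (ha : 0 < a) (sq : e ^ 2 = d * h)
    (h1 : r ^ 2 * x ^ 2 ≤ h * (r ^ 2 * a + a ^ 2)) (h2 : r * e ≤ 4 * x) (hA : a ≤ v * r ^ 2) :
    d ≤ 16 * (v + v ^ 2) := by
  have h7 : r ^ 2 * a + a ^ 2 ≤ r ^ 2 * (v * r ^ 2) + (v * r ^ 2) ^ 2 := by gcongr
  refine le_of_mul_le_mul_left ?_ (mul_pos hh (pow_pos hr 4))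
  calc h * r ^ 4 * d = r ^ 2 * (r * e) ^ 2 := by rw [mul_pow, sq]; ring
    _ ≤ r ^ 2 * (4 * x) ^ 2 := by gcongr
    _ = 16 * (r ^ 2 * x ^ 2) := by ring
    _ ≤ 16 * (h * (r ^ 2 * (v * r ^ 2) + (v * r ^ 2) ^ 2)) :=
      mul_le_mul_of_nonneg_left (h1.trans (by gcongr)) (by norm_num)
    _ = _ := by ring

theorem ar1 (hr : 0 < r) (he : 0 < e) (hh : 0 < h) (ha : 0 < a) (hx : 0 < x) (hv : 0 ≤ v)
    (sq : e ^ 2 = d * h) (h1 : r ^ 2 * x ^ 2 ≤ h * (r ^ 2 * a + a ^ 2)) (h2 : r * e ≤ 4 * x)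
    (h7 : a * e ≤ 2 * x * (v * r)) : d ≤ 16 * (v + v ^ 2) := by
  have h9 : r ^ 2 * e * (a * e) ≤ r ^ 2 * x ^ 2 * (8 * v) :=
    calc _ ≤ r ^ 2 * e * (2 * x * (v * r)) := by gcongr
      _ = r ^ 2 * (2 * x * v) * (r * e) := by ring
      _ ≤ r ^ 2 * (2 * x * v) * (4 * x) := by gcongr
      _ = _ := by ring
  refine le_trans (le_of_mul_le_mul_left (c := 8 * v + 4 * v ^ 2) ?_
    (mul_pos hh (mul_pos (pow_pos hr 2) (pow_pos hx 2)))) (by nlinarith)
  calc h * (r ^ 2 * x ^ 2) * d = e ^ 2 * (r ^ 2 * x ^ 2) := by rw [sq]; ring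
    _ ≤ e ^ 2 * (h * (r ^ 2 * a + a ^ 2)) := by gcongr
    _ = h * (r ^ 2 * e * (a * e) + (a * e) ^ 2) := by ring
    _ ≤ h * (r ^ 2 * x ^ 2 * (8 * v) + (2 * x * (v * r)) ^ 2) := by gcongr
    _ = _ := by ring

theorem ar2 (hr : 0 < r) (he : 0 < e) (hh : 0 < h) (hx : 0 < x) (hy : 0 ≤ y) (hv : 0 ≤ v)
    (sq : e ^ 2 = d * h) (h1 : r ^ 2 * x ^ 2 ≤ h * y ^ 2) (h7 : y * e ≤ x * (v * r)) :
    d ≤ 16 * (v + v ^ 2) := by
  refine le_trans (le_of_mul_le_mul_left (c := v ^ 2) ?_
    (mul_pos hh (mul_pos (pow_pos hr 2) (pow_pos hx 2)))) (by nlinarith)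
  calc h * (r ^ 2 * x ^ 2) * d = e ^ 2 * (r ^ 2 * x ^ 2) := by rw [sq]; ring
    _ ≤ e ^ 2 * (h * y ^ 2) := by gcongr
    _ = h * (y * e) ^ 2 := by ring
    _ ≤ h * (x * (v * r)) ^ 2 := by gcongr
    _ = _ := by ring

theorem ar3 {s t n : ℤ} (hs : 0 < s) (ha : 0 < a) (hn : 0 ≤ n) (h1 : t * s * x = n)
    (h2 : t * h + 1 ≤ s * y) :
    2 * t * (n * h + s * x) < n * (n * 0 + s * y) + s * (n * y + s * a) := by
  have h3 := mul_le_mul_of_nonneg_left h2 hn
  have h4 := mul_pos (mul_pos hs hs) ha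
  nlinarith

end arith

variable {k F : Type} [Field k] [Field F] [Algebra k F] [CharZero k] [Algebra.EssFiniteType k F]

theorem siu (hd : dim k F = 2) {X Y : BD k F} (hX : Nef X) (hY : Nef Y) {p q : ℕ} (hp : 0 < p)
    (h : 2 * q * bnum [Y, X] < p * bnum [X, X]) : Psef (p • X - q • Y) :=
  (big_sub (d := 1) hd hX hY hp (by simpa [one_add_one_eq_two] using h)).psef

/-- the numerical data on the surface -/
structure Dat (H A P : BD k F) (d e r : ℤ) : Prop where
  dim : dim k F = 2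
  H_nef : Nef H
  H_big : Big H
  A_nef : Nef A
  A_big : Big A
  P_nef : Nef P
  e_pos : 0 < e
  r_pos : 0 < r
  sq : e ^ 2 = d * bnum [H, H]
  kA : r ^ 2 * bnum [A, H] ^ 2 ≤ bnum [H, H] * (r ^ 2 * bnum [A, A] + bnum [A + P, A] ^ 2)
  kP : r ^ 2 * bnum [P, H] ^ 2 ≤ bnum [H, H] * (r ^ 2 * bnum [P, P] + bnum [A + P, P] ^ 2)
  lo : NumZ P → r * e ≤ 4 * bnum [A, H]

namespace Dat

variable {H A P : BD k F} {d e r v : ℤ} (h : Dat H A P d e r)
include h

theorem HH : 0 < bnum [H, H] := bnum_pos h.dim.symm (by simpa using ⟨h.H_nef, h.H_big⟩)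

theorem AA : 0 < bnum [A, A] := bnum_pos h.dim.symm (by simpa using ⟨h.A_nef, h.A_big⟩)

theorem AH : 0 < bnum [A, H] :=
  bnum_pos h.dim.symm (by simpa using ⟨⟨h.A_nef, h.A_big⟩, h.H_nef, h.H_big⟩)

theorem of_sq (hP : NumZ P) (hA : bnum [A, A] ≤ v * r ^ 2) : d ≤ 16 * (v + v ^ 2) := by
  have h1 := h.kA
  rw [bnum_add, hP, add_zero] at h1
  exact ar0 h.r_pos h.e_pos h.HH h.AA h.sq h1 (h.lo hP) hA

variable {φ : BD k F →+ ℤ} (hφ : ∀ a, Psef a → 0 ≤ φ a)
include hφ

theorem sq_le : bnum [A, A] * φ H ≤ 2 * bnum [A, H] * φ A := by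
  by_contra h0
  have h1 := h.AA
  have h2 := h.AH
  have h3 := hφ A h.A_nef.psef
  have h4 := hφ H h.H_nef.psef
  obtain ⟨s, hs⟩ := Int.eq_ofNat_of_zero_le (a := φ H + 2 * bnum [A, H]) (by positivity)
  obtain ⟨t, ht⟩ := Int.eq_ofNat_of_zero_le (a := φ A + bnum [A, A]) (by positivity)
  have h5 := hφ _ (siu h.dim h.A_nef h.H_nef (p := s) (q := t) (by omega)
    (by rw [← hs, ← ht, bnum_swap H]; nlinarith))
  rw [map_sub, map_nsmul, map_nsmul, nsmul_eq_mul, nsmul_eq_mul, ← hs, ← ht] at h5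
  nlinarith

theorem mix_le (hP : φ P = 0) (h0 : bnum [P, P] = 0) (h1 : 0 < bnum [P, H]) :
    bnum [A, P] * φ H ≤ bnum [P, H] * φ A := by
  by_contra h0'
  have h2 := h.AH
  have h3 := hφ A h.A_nef.psef
  have h4 := hφ H h.H_nef.psef
  have h5 : 0 ≤ bnum [A, P] := bnum_nonneg (by simpa using ⟨h.A_nef, h.P_nef⟩)
  obtain ⟨s, hs⟩ := Int.eq_ofNat_of_zero_le (a := φ H + bnum [P, H]) (by positivity)
  obtain ⟨t, ht⟩ := Int.eq_ofNat_of_zero_le (a := φ A + bnum [A, P]) (by positivity)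
  obtain ⟨n, hn⟩ := Int.eq_ofNat_of_zero_le (a := t * s * bnum [A, H]) (by positivity)
  have h6 : (t : ℤ) * bnum [P, H] + 1 ≤ s * bnum [A, P] := by rw [← hs, ← ht]; nlinarith
  have h7 : (0 : ℤ) < s := by omega
  have h8 := hφ _ (siu h.dim ((h.P_nef.nsmul n).add (h.A_nef.nsmul s)) h.H_nef (p := 1) (q := t)
    one_pos (by
      simp only [bnum_add, bnum_add2, bnum_nsmul, bnum_nsmul2, h0, bnum_swap H, bnum_swap P A]
      rw [Nat.cast_one, one_mul]
      exact ar3 h7 h.AA (Int.natCast_nonneg n) hn h6))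
  simp only [map_sub, map_add, map_nsmul, nsmul_eq_mul, hP] at h8
  rw [← hs, ← ht] at h8
  push_cast at h8
  nlinarith

theorem of_fam (hv : 0 ≤ v) (hP : φ P = 0) (hA : φ A ≤ v * r) (hH : e ≤ φ H) :
    d ≤ 16 * (v + v ^ 2) := by
  have hr := h.r_pos
  have he := h.e_pos
  have h4 := h.HH
  have h0 : bnum [P, P] = 0 := by
    refine le_antisymm (not_lt.1 fun h0 => ?_) (bnum_nonneg (by simpa using h.P_nef))
    obtain ⟨m, -, hm⟩ := h.P_nef.big_iff.2 (by rwa [h.dim]) H
    have := hφ _ hm.psef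
    rw [map_sub, map_nsmul, hP, smul_zero] at this
    omega
  rcases (bnum_nonneg (l := [P, H]) (by simpa using ⟨h.P_nef, h.H_nef⟩)).eq_or_lt with h1 | h1
  · have hz : NumZ P := h.P_nef.numZ (l := [H]) (by simpa using ⟨h.H_nef, h.H_big⟩) h.dim.symm
      h1.symm
    have h2 := h.kA
    have h5 := h.AA
    have h6 := h.AH
    rw [bnum_add, hz, add_zero] at h2
    exact ar1 hr he h4 h5 h6 hv h.sq h2 (h.lo hz)
      (le_trans (by gcongr) ((h.sq_le hφ).trans (by gcongr)))
  · have h2 := h.kP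
    rw [bnum_add, h0, mul_zero, zero_add, add_zero] at h2
    have h5 : 0 ≤ bnum [A, P] := bnum_nonneg (by simpa using ⟨h.A_nef, h.P_nef⟩)
    exact ar2 hr he h4 h1 h5 hv h.sq h2
      (le_trans (by gcongr) ((h.mix_le hφ hP h0 h1).trans (by gcongr)))

end Dat

end Crest.Agent.X262.Fam
end
end

-- ▼ part X262/Fam17/Core
section

/-!
# Row 262, FAM (helper17), part 3: a threefold fibred in curves over a surface and a second fibration

* `fd α y`   : the degree on the generic fibre of `E / α F`; `prj` : projection formula;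
* `le_range` : a subfield whose big class has degree zero on the fibre lies in `α F`;
* `core`     : bounded numbers on the fibres of `E / K` bound the degree of the surface, or
  `K ≤ α F` has bounded index.
-/

set_option autoImplicit false
set_option linter.unusedSectionVars false

noncomputable section

namespace Crest.Agent.X262.Fam

open Crest.Agent.X277 Crest.Agent.X277.BD Crest.Agent.X277.Pst
open Crest.Agent.X262.Geo Crest.Agent.X262.Loc
open List (replicate)

variable {k F E : Type} [Field k] [Field F] [Algebra k F] [Field E] [Algebra k E] [CharZero k]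
  [Algebra.EssFiniteType k F] [Algebra.EssFiniteType k E] {α : F →ₐ[k] E}

variable (α) in
/-- the degree on the generic fibre -/
def fd (y : BD k E) : ℤ := bnum [up α.fieldRange y]

theorem deg_rng : deg (α.equivFieldRange : F →ₐ[k] α.fieldRange) = 1 :=
  deg_of_surj α.equivFieldRange.surjective

theorem dim_rng : dim k α.fieldRange = dim k F :=
  (deg_pos_iff _).1 (by rw [deg_rng]; exact one_pos)

theorem prj (hF : dim k F = 2) (u w : BD k F) (y : BD k E) :
    bnum [pb α u, pb α w, y] = bnum [u, w] * fd α y := by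
  have h1 : ∀ u, pb α u = pb α.fieldRange.val (pb (α.equivFieldRange : F →ₐ[k] _) u) := fun u => by
    rw [pb_pb]
    rfl
  have h2 := bnum_prj_val α.fieldRange [y]
    (lam := [u, w].map (pb (α.equivFieldRange : F →ₐ[k] _))) (by rw [dim_rng, hF]; rfl)
  rw [bnum_pb, deg_rng, Nat.cast_one, one_mul, bnum_comm] at h2
  rw [h1 u, h1 w]
  exact h2

theorem fd_nonneg {y : BD k E} (hy : Psef y) : 0 ≤ fd α y :=
  (hy.up _).bnum_nonneg (by simp)

theorem le_range (hd : dim α.fieldRange E = 1)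
    (hα : ∀ x, IsAlgebraic α.fieldRange x → x ∈ α.fieldRange) {K : IntermediateField k E}
    {B : BD k K} (hB : Big B) (h : fd α (pb K.val B) = 0) : K ≤ α.fieldRange := fun x hx => by
  obtain ⟨m, -, hm⟩ := hB (mxf k ![1, ⟨x, hx⟩])
  have h1 := fd_nonneg (α := α) (hm.pb K.val).psef
  have h2 : up α.fieldRange (pb K.val (mxf k ![1, ⟨x, hx⟩])) = mxf α.fieldRange ![1, x] := by
    rw [pb_mxf, up_mxf]
    congr 1
    funext i
    fin_cases i <;> rfl
  rw [fd] at h
  rw [fd, map_sub, map_sub, map_nsmul, map_nsmul, bnum_sub, bnum_nsmul, h, h2] at h1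
  obtain ⟨f, hf, h3⟩ := lin_zero_of_eff hd (free_mxf ![1, x]).eff
    (le_antisymm (by simpa using h1) (bnum_nonneg (by simpa using (free_mxf _).nef)))
  have h4 : ∀ i, IsAlgebraic α.fieldRange (![1, x] i / f) := fun i =>
    Gfm.isAlg_of_Sec_zero ((mem_Sec_add_pr hf).1 (h3 ▸ mem_Sec_mxf _ i))
  refine hα x ?_
  simpa [hf] using (h4 1).mul (h4 0).inv

theorem exists_hom {K : IntermediateField k E} (h : K ≤ α.fieldRange) :
    ∃ β : K →ₐ[k] F, ∀ c, pb α (pb β c) = pb K.val c := by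
  refine ⟨(α.equivFieldRange.symm : _ →ₐ[k] F).comp (IntermediateField.inclusion h), fun c => ?_⟩
  rw [pb_pb]
  congr 2
  ext x
  exact congrArg Subtype.val (α.equivFieldRange.apply_symm_apply (IntermediateField.inclusion h x))

theorem dvd_cyc {H : BD k F} {e : ℤ} (he : ∀ V, Dvs V → e ∣ dg V [H]) (c : BD k F) :
    e ∣ bnum [c, H] := by
  obtain ⟨T, -, h2, -, h4⟩ := exists_cyc c [H] ∅ (by simp)
  exact h4 ▸ Finset.dvd_sum fun V hV => (he V (h2 V hV)).mul_left _

/-- **the family lemma** -/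
theorem core [IsAlgClosed k] {H A P : BD k F} {d e r v : ℤ} (h : Dat H A P d e r)
    (he : ∀ V, Dvs V → e ∣ dg V [H]) (hE : dim k E = 3)
    (hα : ∀ x, IsAlgebraic α.fieldRange x → x ∈ α.fieldRange) {M : BD k E} (hr : fd α M = r)
    (K : IntermediateField k E) (hK : 0 < dim K E) (hP : Lin (up K (pb α P)) 0) (hv0 : 0 ≤ v)
    (hv : ∀ i j : ℕ,
      bnum ((replicate i (pb α A) ++ replicate j M).map (up K)) ≤ v * r ^ (i + j)) :
    d ≤ 16 * (v + v ^ 2) ∨ ∃ β : K →ₐ[k] F, dim k K = 2 ∧ 0 < deg β ∧ (deg β : ℤ) ≤ v := by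
  have hF := h.dim
  have hr0 := h.r_pos
  have hd : dim α.fieldRange E = 1 := by
    have := dim_tower k α.fieldRange E
    rw [dim_rng] at this
    omega
  have hz : ∀ l, bnum (up K (pb α P) :: l) = 0 := fun l => by rw [hP.bnum_eq, bnum_zero]
  have hn : bnum [P, H] = 0 → NumZ P :=
    h.P_nef.numZ (l := [H]) (by simpa using ⟨h.H_nef, h.H_big⟩) hF.symm
  have ht := dim_tower k K E
  rcases (show dim k K = 0 ∨ dim k K = 1 ∨ dim k K = 2 by omega) with h0 | h0 | h0
  · have h1 : ∀ l : List (BD k E), bnum l = bnum (l.map (up K)) := fun l => by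
      have := dim_eq_zero_iff.1 h0
      rw [bnum_up_fin (K := K), Algebra.finrank_eq_one_iff_bijective_algebraMap.2
        IsAlgClosed.algebraMap_bijective_of_isIntegral, Nat.cast_one, one_mul]
    refine Or.inl (h.of_sq (hn ?_) (le_of_mul_le_mul_right ?_ hr0))
    · refine (mul_eq_zero.1 ?_).resolve_right hr0.ne'
      rw [← hr, ← prj hF, h1]
      exact hz _
    · rw [mul_assoc, ← pow_succ]
      refine le_trans (le_of_eq ?_) (hv 2 1)
      rw [← hr, ← prj hF, h1]
      rfl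
  · obtain ⟨a, ha, h1⟩ := exists_uni1 h0
    have h2 : ∀ x y : BD k E, bnum [x, y, pb K.val a] = bnum [up K x, up K y] := fun x y => by
      simpa [h1] using bnum_prj_val K [x, y] (lam := [a]) h0.symm
    refine Or.inl ?_
    rcases (fd_nonneg (α := α) (ha.pb K.val).psef).eq_or_lt with h3 | h3
    · obtain ⟨β, hβ⟩ := exists_hom
        (le_range hd hα ((big_iff_deg h0).2 (by rw [h1]; exact one_pos)) h3.symm)
      have h4 : ∀ y, bnum [y, pb β a] * r = bnum [up K (pb α y), up K M] := fun y => by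
        rw [← hr, ← prj hF, hβ, ← h2]
        exact bnum_perm (.cons _ (.swap _ _ _))
      refine h.of_fam (φ := bnumL [pb β a])
        (fun y hy => hy.bnum_nonneg (by simpa using ha.pb β)) hv0
        ((mul_eq_zero.1 ((h4 P).trans (hz _))).resolve_right hr0.ne')
        (le_of_mul_le_mul_right ((h4 A).trans_le ((hv 1 1).trans_eq (by ring))) hr0) ?_
      change e ≤ bnum [H, pb β a]
      rw [bnum_swap]
      refine Int.le_of_dvd (lt_of_le_of_ne (bnum_nonneg (by simpa using ⟨ha.pb β, h.H_nef⟩))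
        fun h5 => ?_) (dvd_cyc he _)
      have h6 := ha.numZ_of_pb β ((ha.pb β).numZ (l := [H]) (by simpa using ⟨h.H_nef, h.H_big⟩)
        hF.symm h5.symm) []
      omega
    · refine h.of_sq (hn ?_) (le_trans (le_mul_of_one_le_right h.AA.le h3) ?_)
      · refine (mul_eq_zero.1 ?_).resolve_right h3.ne'
        rw [← prj hF, h2]
        exact hz _
      · rw [← prj hF, h2]
        exact hv 2 0
  · have h1 : dim K E = 1 := by omega
    have h2 : ∀ (x : BD k E) (a b : BD k K),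
        bnum [x, pb K.val a, pb K.val b] = bnum [a, b] * bnum [up K x] := fun x a b =>
      bnum_prj_val K [x] (lam := [a, b]) h0.symm
    have h3 : ∀ y : BD k F, Psef y → 0 ≤ bnum [up K (pb α y)] := fun y hy =>
      ((hy.pb α).up K).bnum_nonneg (by simp)
    rcases (h3 A h.A_nef.psef).eq_or_lt with h4 | h4
    · obtain ⟨B, hB⟩ := Mod.exists_isMod (k := k) (F := K)
      obtain ⟨Q, hQ⟩ := Mod.exists_isMod (k := k) (F := E)
      have h5 : 0 < bnum [B, B] := bnum_pos h0.symm (by simpa using ⟨hB.free.nef, hB.big⟩)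
      have h6 := hB.free.nef.pb K.val
      have h7 := hodge (x := pb α A) (Λ := [pb K.val B]) (by simpa using h6) h6 hQ.free.nef
        (by rw [bnum_swap, h2]; exact mul_pos h5 ((big_iff_deg h1).1 (hQ.big.up K)))
        (by rw [h2, ← h4, mul_zero])
      rw [prj hF] at h7
      obtain ⟨β, hβ⟩ := exists_hom (le_range hd hα hB.big (le_antisymm
        (le_of_mul_le_mul_left (by simpa using h7) h.AA) (fd_nonneg h6.psef)))
      refine Or.inr ⟨β, h0, (deg_pos_iff β).2 (hF.trans h0.symm), ?_⟩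
      have h8 := prj (α := α) hF (pb β B) (pb β B) M
      have h9 : bnum [pb β B, pb β B] = deg β * bnum [B, B] := bnum_pb β [B, B]
      rw [hβ, h9, hr] at h8
      have h10 : bnum [up K M] ≤ v * r := by simpa using hv 0 1
      have h11 := (h2 M B B).symm.trans ((bnum_comm [M] [_, _]).trans h8)
      refine le_of_mul_le_mul_right (le_of_mul_le_mul_left ?_ h5) hr0
      calc bnum [B, B] * (deg β * r) = bnum [B, B] * bnum [up K M] := by rw [h11]; ring
        _ ≤ _ := by gcongr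
    · refine Or.inl (h.of_fam (φ := (bnumL []).comp ((up K).comp (pb α))) h3 hv0 (hz _)
        ((hv 1 0).trans_eq (by ring)) ?_)
      change e ≤ bnum [up K (pb α H)]
      refine Int.le_of_dvd ?_ ?_
      · obtain ⟨m, -, hm⟩ := h.H_big A
        have h5 := h3 _ hm.psef
        rw [map_sub, map_sub, map_nsmul, map_nsmul, bnum_sub, bnum_nsmul] at h5
        exact pos_of_mul_pos_left (b := (m : ℤ)) (by rw [mul_comm]; omega) (Int.natCast_nonneg m)
      · obtain ⟨a, b, h5⟩ := exists_uni2 h0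
        have h6 := dvd_bnum hF he 2 E _ [pb K.val a, pb K.val b] (lnr_ofHom α) rfl
        rwa [(lin_mp _ _ H).bnum_eq, ← pb, h2, h5, one_mul] at h6

end Crest.Agent.X262.Fam
end
end

-- ▼ part X262/Fam17/Main

/-!
# Row 262, FAM (helper17), part 4: `Bnd.FamStmt`

* `bound`   : the numbers of `N`, `M` on the fibres of the divisor are bounded by the volume;
* `dat`     : the numerical data of a K3 centre;
* `fam_of`  : `FamStmt` from `VolStmt`, `KStmt`, `G3Stmt`, `PGStmt`.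
-/

set_option autoImplicit false
set_option linter.unusedSectionVars false

open scoped KaehlerDifferential

noncomputable section

namespace Crest.Agent.X262.Fam

open Crest.Agent.X277 Crest.Agent.X277.Lef Crest.Agent.X277.BD Crest.Agent.X277.Pst
open Crest.Agent.X277.BD.Br (On oP kP)
open Crest.Agent.X277.BD.Cyc (Lnr Rf plV lnr_plV surj_plV)
open Crest.Agent.X262.Geo Crest.Agent.X262.Loc Crest.Agent.X262.Bnd Crest.Agent.X262.Sark
open Crest.Agent.X262.Mod (IsMod Car car_self)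
open Crest.Agent.X262.Top (K3)
open List (replicate)

section bound

variable {k K E : Type} [Field k] [Field K] [Algebra k K] [Field E] [Algebra k E] [CharZero k]
  [Algebra.EssFiniteType k K] [Algebra.EssFiniteType k E] {p : Pl k K k E}

theorem mono_le {N M : BD k K} (hN : Nef N) (hM : Nef M) (h : M ≤ N) (i j : ℕ) :
    bnum (replicate i N ++ replicate j M) ≤ bnum (replicate (i + j) N) := by
  rw [bnum_comm, add_comm, List.replicate_add]
  exact bnum_rep_mono hM hN (eff_sub_of_le h).psef j (all_rp hN i)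

/-- the numbers on the fibres of the divisor are bounded by the volume of the fibre -/
theorem bound (hp : Lnr p) (hs : Function.Surjective p.φ) (hV : Dvs p.V) (L : IntermediateField k K)
    {N M : BD k K} (hN : Nef N) (hM : Nef M) (h : M ≤ N) {r v : ℤ} (hr : 0 < r) (hv : 0 ≤ v)
    (ho : od p.V (N - M) = r) (hvol : bnum (replicate (dim L K) (up L N)) ≤ v * r ^ dim L K)
    (i j : ℕ) : bnum (((replicate i N ++ replicate j M).map p.rs).map (up (k0 hp L))) ≤
      v * r ^ (i + j) := by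
  have h1 : ∀ i j, bnum ((replicate i N ++ replicate j M).map (up L)) ≤ v * r ^ (i + j) := by
    intro i j
    rw [List.map_append, List.map_replicate, List.map_replicate]
    refine (mono_le (hN.up L) (hM.up L) (up_mono h) i j).trans ?_
    by_cases h2 : i + j = dim L K
    · rwa [h2]
    · rw [bnum_of_ne (by simpa using h2)]
      positivity
  have h2 := all_app (all_rp hN i) (all_rp hM j)
  by_cases h0 : (tr L p).V.1 = ⊤
  · have h3 := spec_hor hp hs hV h0 (sub_nonneg.2 h) h2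
    have h4 := h1 (i + 1) j
    have h5 : 0 ≤ bnum (up L M :: (replicate i N ++ replicate j M).map (up L)) :=
      bnum_nonneg (all_con (hM.up L) fun x hx => by
        obtain ⟨y, hy, rfl⟩ := List.mem_map.1 hx
        exact (h2 y hy).up L)
    rw [ho, List.map_cons, map_sub, bnum_sub] at h3
    rw [List.replicate_succ, List.cons_append, List.map_cons] at h4
    refine le_of_mul_le_mul_left (h3.trans ((sub_le_self _ h5).trans (h4.trans_eq ?_))) hr
    ring
  · exact ((spec_vert hp hs hV h0).2 _ h2).trans (h1 i j)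

/-- classes from the base die on the fibres of the divisor -/
theorem lin_up_rs (hp : Lnr p) {L : IntermediateField k K} {A : BD k K} (hA : A.Free)
    (h : cf A ≤ L) : Lin (up (k0 hp L) (p.rs A)) 0 := by
  obtain ⟨B, -, hB⟩ := exists_pb_of_le hA ((sf_le_cf A).trans h)
  have h1 := (((lin_rs_congr p hB).trans (rs_pb _ p B)).trans
    (pb_toRg (p := tr L p) (lnr_sub hp) B).symm).up (k0 hp L)
  rwa [up_pb _ fun _ => rfl] at h1

/-- a divisor which dominates the base sees the top power of its polarisation -/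
theorem pos_of_hor (hp : Lnr p) {A : BD k K} (hA : A.Free) (h0 : (tr (cf A) p).V.1 = ⊤)
    (hd : dim k (cf A) = dim k E) : 0 < bnum (replicate (dim k E) (p.rs A)) := by
  have h1 := dim_rg_top (p := tr (cf A) p) (lnr_sub hp) h0
  have h2 := bnum_rs_prj (p := tr (cf A) p) (lnr_sub hp) (lam := replicate (dim k (cf A)) (bs A))
    (by simp [h1]) []
  have h3 := dim_tower k (k0 hp (cf A)) E
  have : Module.Finite (k0 hp (cf A)) E := dim_eq_zero_iff.1 (by rw [h1] at h3; omega)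
  rw [bnum_rg_top _ h0, List.map_nil, bnum_nil, List.append_nil, List.map_replicate] at h2
  rw [Gfm.bnum_rep_lin' ((lin_rs_congr p (lin_bs hA)).trans (rs_pb _ p _)), ← hd]
  exact h2 ▸ mul_pos (dl_pos hA) (by exact_mod_cast Module.finrank_pos)

theorem alg_of_dim {L L' : IntermediateField k K} (h : L ≤ L') (hd : dim k L' = dim k L) {x : K}
    (hx : x ∈ L') : IsAlgebraic L x := by
  let := (IntermediateField.inclusion h).toRingHom.toAlgebra
  have := Module.finite_of_finrank_pos ((deg_pos_iff (IntermediateField.inclusion h)).2 hd)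
  exact (IsAlgebraic.of_finite L (⟨x, hx⟩ : L')).ringHom_of_comp_eq (RingHom.id L)
    (L'.val : L' →+* K) Function.injective_id rfl

end bound

theorem al_closed {κ F : Type} [Field κ] [Algebra ℂ κ] [Field F] [Algebra ℂ F]
    (e : κ ≃ₐ[ℂ] RatFunc F) (x : κ) (h : IsAlgebraic (al e).fieldRange x) :
    x ∈ (al e).fieldRange := by
  have h1 : IsAlgebraic F (e x) := by
    refine (h.ringHom_of_comp_eq ((al e).equivFieldRange.symm : _ →+* F) (e : κ →+* RatFunc F)
      (al e).equivFieldRange.symm.injective (RingHom.ext fun y => ?_))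
    obtain ⟨y, rfl⟩ := (al e).equivFieldRange.surjective y
    change algebraMap F _ ((al e).equivFieldRange.symm _) = e (al e y)
    rw [AlgEquiv.symm_apply_apply]
    exact (e.apply_symm_apply _).symm
  obtain ⟨c, hc⟩ : ∃ c, e x = RatFunc.C c := by
    by_contra h2
    exact RatFunc.transcendental_of_ne_C _ h2 h1
  exact ⟨c, e.injective ((e.apply_symm_apply _).trans hc.symm)⟩

section K3

variable {F : Type} [Field F] [Algebra ℂ F] [Algebra.EssFiniteType ℂ F] {δ : ℕ} (S : K3 F δ)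

theorem dvd_dg (V : RZ ℂ F) (hV : Dvs V) : (δ : ℤ) ∣ dg V [S.L] := by
  by_cases h : Prm (oP S.P) V
  · obtain ⟨c, hc⟩ := S.gen _ (dv_mem (P := S.P) V)
    have h1 := hc _ S.L_on
    rw [bnum_sub, bnum_zsmul, S.L_sq, bnum_dv h (by simpa using S.L_on)] at h1
    exact ⟨c, by linarith⟩
  · rw [Hor83.dg_car (Surf.K3n.dim_two S) Br.free_oP (car_of_On S.L_on) hV h]
    exact dvd_zero _

theorem dat (hK : Surf.KStmt) {a p : BD ℂ F} (ha : a.Free) (hb : Big a) (hp : p.Free)
    (hc : Car a p) {r : ℕ} (hr : 0 < r)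
    (I1 : ∀ (Q : PModel ℂ F) (c : Bs 2 F) (D : BD ℂ F), D ∈ On Q → Nef D → Car a D →
      r * bnum [kP Q c, D] ≤ bnum [a + p, D])
    (I2 : NumZ p → (r * δ : ℤ) ≤ 4 * bnum [a, S.L]) : Dat S.L a p δ δ r := by
  classical
  obtain ⟨Q, hQ⟩ := Unf.exists_on (F := F) {a, p, oP S.P}
  have h0 : (0 : ℤ) < δ := by exact_mod_cast Surf.K3n.d_pos S
  have key : ∀ D, D ∈ On Q → Nef D → Car a D → (r : ℤ) ^ 2 * bnum [D, S.L] ^ 2 ≤
      bnum [S.L, S.L] * (r ^ 2 * bnum [D, D] + bnum [a + p, D] ^ 2) := fun D h1 h2 h3 => by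
    have h4 := hK F δ S Q S.b (hQ _ (by simp)) D h1 h2
    have h5 := I1 Q S.b D h1 h2 h3
    have h6 : 0 ≤ bnum [kP Q S.b, D] :=
      (Surf.K3n.k_eff S (hQ _ (by simp)) S.b).bnum_nonneg (by simpa using h2)
    rw [S.L_sq]
    calc _ ≤ (r : ℤ) ^ 2 * (δ * (bnum [D, D] + bnum [kP Q S.b, D] ^ 2)) := by gcongr
      _ = δ * (r ^ 2 * bnum [D, D] + (r * bnum [kP Q S.b, D]) ^ 2) := by ring
      _ ≤ _ := by gcongr
  exact ⟨Surf.K3n.dim_two S, Surf.K3n.nef_L S, (Surf.K3n.nef_L S).big_iff.2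
    (by rw [Surf.K3n.dim_two S]; exact S.L_sq ▸ h0), ha.nef, hb, hp.nef, h0, by exact_mod_cast hr,
    by rw [S.L_sq, sq], key a (hQ _ (by simp)) ha.nef (car_self ha),
    key p (hQ _ (by simp)) hp.nef hc, I2⟩

end K3

/-- **FAM** -/
theorem fam_of (hV : VolStmt) (hK : Surf.KStmt) (hG : Surf.G3Stmt) (hP : PGStmt) : FamStmt := by
  obtain ⟨C, hC⟩ := hV
  obtain ⟨G, hG⟩ := hG
  refine ⟨16 * ((C + 1) ^ 4 + ((C + 1) ^ 4) ^ 2) + G ((C + 1) ^ 4) + 1, ?_⟩
  intro K _ _ _ b Y E F _ _ _ δ S e hno hE hδ ⟨D⟩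
  obtain ⟨L, hL1, -, hL3, hL4⟩ := hC K b Y
  have := essFT_Rf hE
  have hK4 : dim ℂ K = 4 := (Module.finrank_eq_card_basis b).trans (Fintype.card_fin 4)
  have hE3 : dim ℂ (Rf E) = 3 := by have := dim_Rf' hE; omega
  have hα := al_closed e
  have hr : 0 < D.q * Y.r := Nat.mul_pos D.q_pos Y.r_pos
  have hN := Gfm.isMod_anti Y D.N_amp
  obtain ⟨c, -, hc⟩ := (Gfm.car_anti' Y D.N_amp).trans hN.free (Y.A_car.nsmul D.l)
  obtain ⟨c', -, hc'⟩ := (Gfm.car_anti' Y D.N_amp).trans hN.free Y.A_car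
  have hcar : Car D.a D.p := by
    refine Mod.car_of_free D.a_free D.p_free (n := c) ((Br.free_pb_iff (α := al e)
      fun g hg => hα g (IsIntegral.isAlgebraic (R := (al e).fieldRange) hg)).1 ?_)
    rw [map_sub, map_nsmul]
    refine Lin.free ?_ (Pl.free_rs (p := plV E) hc)
    refine Lin.trans ?_ (lin_rs_sub _ _ _).symm
    rw [sub_eq_add_neg, sub_eq_add_neg (Pl.rs _ _)]
    exact ((D.a_lin.symm.nsmul c).trans (lin_rs_nsmul _ _ _).symm).add D.p_lin.symm.neg
  have ht := dim_tower ℂ L K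
  have ht' := dim_tower ℂ (k0 (lnr_plV E) L) (Rf E)
  have hpos := Gfm.dim_pos Y
  have hadd := dim_cf_add Y.A
  have hone : dim L K ≤ 1 → L = cf Y.A ∧ dim ℂ (cf Y.A) = 3 := fun h => by
    have h1 : dim ℂ (cf Y.A) = 3 := by omega
    have h2 := dim_le (IntermediateField.inclusion hL1)
    exact ⟨le_antisymm (fun x hx => cf_cl (alg_of_dim hL1 (by omega) hx)) hL1, h1⟩
  have hvol : bnum (replicate (dim L K) (up L (D.l • Y.A - D.q • Y.κ))) ≤
      ((C + 1) ^ 4 : ℕ) * ((D.q * Y.r : ℕ) : ℤ) ^ dim L K := by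
    rw [Gfm.bnum_up_anti Y.A_free hL1]
    calc _ ≤ (D.q : ℤ) ^ dim L K * ((C * Y.r : ℕ) : ℤ) ^ dim L K := by gcongr
      _ = (C : ℤ) ^ dim L K * ((D.q * Y.r : ℕ) : ℤ) ^ dim L K := by push_cast; ring
      _ ≤ _ := by
        gcongr
        exact_mod_cast (Nat.pow_le_pow_left C.le_succ _).trans
          (Nat.pow_le_pow_right C.succ_pos (by omega))
  have hk : 0 < dim (k0 (lnr_plV E) L) (Rf E) := by
    by_cases h0 : (tr L (plV E)).V.1 = ⊤
    · have h1 : dim ℂ (k0 (lnr_plV E) L) = dim ℂ L := dim_rg_top _ h0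
      by_contra h2
      obtain ⟨rfl, h3⟩ := hone (by omega)
      have h4 := pos_of_hor (lnr_plV E) Y.A_free h0 (h3.trans hE3.symm)
      have h5 := bnum_pow_mono (Y.A_free.nef.rs (plV E)) ((hN.free.nef.nsmul c').rs (plV E))
        ((lin_rs_sub _ _ _).symm.psef (Pl.free_rs hc').eff.psef) (dim ℂ (Rf E))
      have h6 := bnum_pb_zero (al e) (l := replicate 3 (c' • D.a)) (by simp [Surf.K3n.dim_two S]) []
      rw [List.map_replicate, List.append_nil] at h6
      rw [Gfm.bnum_rep_lin' ((lin_rs_nsmul _ _ _).trans (D.a_lin.nsmul c')), ← map_nsmul, hE3,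
        h6] at h5
      rw [hE3] at h4
      omega
    · have := (spec_vert (lnr_plV E) (surj_plV E) hE h0).1
      omega
  have hcore := core (dat S hK D.a_free D.a_big D.p_free hcar hr D.I1 D.I2) (dvd_dg S) hE3 hα
    (M := (plV E).rs D.M) (v := ((C + 1) ^ 4 : ℕ)) 
    (by rw [← D.M_dg, fdg, dif_pos (eftTop _)]; rfl)
    (k0 (lnr_plV E) L) hk ((D.p_lin.symm.up _).trans (lin_up_rs _ (Y.A_free.nsmul _)
      ((Gfm.cf_le_of_car Y.A_free ((car_self Y.A_free).nsmul _)).trans hL1)))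
    (Int.natCast_nonneg _) fun i j => by
      refine le_trans (le_of_eq ?_) (bound (lnr_plV E) (surj_plV E) hE L hN.free.nef D.M_free.nef
        D.M_le (by exact_mod_cast hr) (Int.natCast_nonneg _) D.M_od hvol i j)
      simp only [List.map_append, List.map_replicate]
      rw [bnum_comm, ← bnum_rep_lin (D.a_lin.up _), bnum_comm]
  rcases hcore with h | ⟨β, h1, h2, h3⟩
  · have : δ ≤ 16 * ((C + 1) ^ 4 + ((C + 1) ^ 4) ^ 2) := by exact_mod_cast h
    omega
  have h4 : deg β = 1 := by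
    by_contra h4
    have := hG _ F β δ _ S (by omega) (by exact_mod_cast h3)
    omega
  have hβ : Function.Bijective β := by
    let := β.toRingHom.toAlgebra
    exact Algebra.finrank_eq_one_iff_bijective_algebraMap.1 h4
  have h5 : PG2 (k0 (lnr_plV E) L) := hP F _ (AlgEquiv.ofBijective β hβ).symm
    ⟨S.P, S.b, S.can.eff Eff.zero⟩ h1
  by_cases h0 : (tr L (plV E)).V.1 = ⊤
  · refine (hno L (hP _ _ (AlgEquiv.ofBijective _ ⟨(homOf (lnr_toRg (lnr_sub (lnr_plV E))) h0).injective,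
      surj_homOf _ h0⟩).symm h5 ?_)).elim
    exact (dim_rg_top _ h0).symm.trans h1
  · obtain ⟨rfl, h6⟩ := hone (by have := (spec_vert (lnr_plV E) (surj_plV E) hE h0).1; omega)
    refine ⟨h6, ?_⟩
    have h7 : rsd (cf Y.A) E = k0 (lnr_plV E) (cf Y.A) := by
      refine le_antisymm (IntermediateField.adjoin_le_iff.2 ?_) ?_
      · rintro _ ⟨x, hx, rfl⟩
        exact ⟨⟨x, hx⟩, sub_r _⟩
      · rintro _ ⟨x, rfl⟩
        exact IntermediateField.subset_adjoin _ _
          ⟨x, x.2, (sub_r (q := plV E) (α := (cf Y.A).val) x).symm⟩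
    exact h7 ▸ h5

end Crest.Agent.X262.Fam
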